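import Mathlib

/-!
Geometry of fixed spaces of families of isometries of a real Hilbert space.
-/

open scoped InnerProductSpace

namespace Vale.Agent.P011Z.TL

variable {H : Type} [NormedAddCommGroup H] [InnerProductSpace ℝ H]

/-- `P` is the orthogonal projection onto `M`. -/
structure IsPrj (M : Submodule ℝ H) (P : H →L[ℝ] H) : Prop where
  mem : ∀ v, P v ∈ M
  orth : ∀ v, ∀ m ∈ M, ⟪v - P v, m⟫_ℝ = 0

theorem exists_prj [CompleteSpace H] {M : Submodule ℝ H} (hM : IsClosed (M : Set H)) :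
    ∃ P, IsPrj M P := by
  have : CompleteSpace M := hM.completeSpace_coe
  exact ⟨M.starProjection, fun v => M.starProjection_apply_mem v,
    fun v m hm => M.starProjection_inner_eq_zero v m hm⟩

namespace IsPrj

variable {M : Submodule ℝ H} {P : H →L[ℝ] H}

theorem inner_left (h : IsPrj M P) (v : H) {m : H} (hm : m ∈ M) : ⟪P v, m⟫_ℝ = ⟪v, m⟫_ℝ := by
  have := h.orth v m hm
  rw [inner_sub_left] at this
  linarith

theorem eq_of (h : IsPrj M P) {v y : H} (hy : y ∈ M) (ho : ∀ m ∈ M, ⟪v - y, m⟫_ℝ = 0) :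
    P v = y := by
  have hm : P v - y ∈ M := M.sub_mem (h.mem v) hy
  have h1 := h.orth v _ hm
  have h2 := ho _ hm
  have h3 : ⟪P v - y, P v - y⟫_ℝ = 0 := by
    have : P v - y = (v - y) - (v - P v) := by abel
    nth_rewrite 1 [this]
    rw [inner_sub_left, h1, h2, sub_zero]
  exact sub_eq_zero.1 (inner_self_eq_zero.1 h3)

theorem self (h : IsPrj M P) {m : H} (hm : m ∈ M) : P m = m :=
  h.eq_of hm fun _ _ => by simp

theorem comm (h : IsPrj M P) (g : H ≃ₗᵢ[ℝ] H) (h1 : ∀ m ∈ M, g m ∈ M)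
    (h2 : ∀ m ∈ M, g⁻¹ m ∈ M) (v : H) : P (g v) = g (P v) := by
  refine h.eq_of (h1 _ (h.mem v)) fun m hm => ?_
  have e : m = g (g⁻¹ m) := (g.apply_symm_apply m).symm
  rw [← map_sub, e, g.inner_map_map]
  exact h.orth v _ (h2 m hm)

theorem dist_le (h : IsPrj M P) (v : H) {m : H} (hm : m ∈ M) : ‖v - P v‖ ≤ ‖v - m‖ := by
  have h1 : ‖v - P v‖ ^ 2 = ⟪v - P v, v - m⟫_ℝ := by
    have : v - m = (v - P v) + (P v - m) := by abel
    rw [this, inner_add_right, h.orth v _ (M.sub_mem (h.mem v) hm), add_zero,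
      real_inner_self_eq_norm_sq]
  have h2 := real_inner_le_norm (v - P v) (v - m)
  rcases (norm_nonneg (v - P v)).eq_or_lt with h0 | h0
  · rw [← h0]; exact norm_nonneg _
  · nlinarith

theorem norm_sub_sq (h : IsPrj M P) (v : H) : ‖v - P v‖ ^ 2 = ‖v‖ ^ 2 - ‖P v‖ ^ 2 := by
  rw [norm_sub_sq_real, real_inner_comm, ← real_inner_comm (P v), ← h.inner_left v (h.mem v),
    real_inner_self_eq_norm_sq]
  ring

end IsPrj

/-- The vectors which are fixed by a family of isometries. -/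
def Fx {ι : Type} (x : ι → (H ≃ₗᵢ[ℝ] H)) : Submodule ℝ H where
  carrier := {v | ∀ t, x t v = v}
  zero_mem' := fun t => map_zero _
  add_mem' := fun {a b} ha hb t => by rw [map_add, ha t, hb t]
  smul_mem' := fun c a ha t => by rw [map_smul, ha t]

theorem mem_Fx {ι : Type} {x : ι → (H ≃ₗᵢ[ℝ] H)} {v : H} : v ∈ Fx x ↔ ∀ t, x t v = v := Iff.rfl

theorem isClosed_Fx {ι : Type} (x : ι → (H ≃ₗᵢ[ℝ] H)) : IsClosed (Fx x : Set H) := by
  have : (Fx x : Set H) = ⋂ t, {v | x t v = v} := by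
    ext v
    simp only [SetLike.mem_coe, mem_Fx, Set.mem_iInter, Set.mem_ofPred_eq]
  rw [this]
  exact isClosed_iInter fun t => isClosed_eq (x t).continuous continuous_id

variable [CompleteSpace H]

/-- An invariant closed convex set contains a fixed vector. -/
theorem exists_fixed {ι : Type} (x : ι → (H ≃ₗᵢ[ℝ] H)) {S : Set H} (hne : S.Nonempty)
    (hc : IsClosed S) (hv : Convex ℝ S) (hi : ∀ t, ∀ y ∈ S, x t y ∈ S) : ∃ y ∈ S, y ∈ Fx x := by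
  obtain ⟨y, hy, hmin⟩ := exists_norm_eq_iInf_of_complete_convex hne hc.isComplete hv 0
  refine ⟨y, hy, fun t => ?_⟩
  have h1 := (norm_eq_iInf_iff_real_inner_le_zero hv hy).1 hmin _ (hi t y hy)
  rw [zero_sub, inner_neg_left, inner_sub_right, real_inner_self_eq_norm_sq] at h1
  have h2 : ‖x t y - y‖ ^ 2 ≤ 0 := by
    rw [norm_sub_sq_real, LinearIsometryEquiv.norm_map, real_inner_comm]
    linarith
  exact sub_eq_zero.1 (norm_eq_zero.1 (pow_eq_zero_iff two_ne_zero |>.1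
    (le_antisymm h2 (sq_nonneg _))))

theorem exists_near {ι : Type} [Nonempty ι] {x : ι → (H ≃ₗᵢ[ℝ] H)}
    (hx : ∀ s t, ∃ r, x r = x s * x t) {v : H} {δ : ℝ} (h : ∀ t, ‖x t v - v‖ ≤ δ) :
    ∃ y ∈ Fx x, ‖v - y‖ ≤ δ := by
  obtain ⟨y, hy, hf⟩ := exists_fixed x (S := ⋂ t, x t ⁻¹' Metric.closedBall v δ)
    ⟨v, Set.mem_iInter.2 fun t => mem_closedBall_iff_norm.2 (h t)⟩
    (isClosed_iInter fun t => Metric.isClosed_closedBall.preimage (x t).continuous)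
    (convex_iInter fun t => (convex_closedBall v δ).linear_preimage (x t).toLinearEquiv.toLinearMap)
    fun t y hy => Set.mem_iInter.2 fun s => by
      obtain ⟨r, hr⟩ := hx s t
      have := Set.mem_iInter.1 hy r
      rwa [hr] at this
  refine ⟨y, hf, ?_⟩
  have := Set.mem_iInter.1 hy (Classical.arbitrary ι)
  rwa [Set.mem_preimage, hf, mem_closedBall_iff_norm'] at this

theorem eq_zero_of_const {ι : Type} [Nonempty ι] {x : ι → (H ≃ₗᵢ[ℝ] H)}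
    (hx : ∀ s t, ∃ r, x r = x s * x t) {u y : H} {c : ℝ} (hu : ∀ f ∈ Fx x, ⟪f, u⟫_ℝ = 0)
    (h : ∀ t, ⟪y, x t u⟫_ℝ = c) : c = 0 := by
  obtain ⟨z, hz, hf⟩ := exists_fixed x
    (S := ((Fx x)ᗮ : Set H) ∩ ⋂ t, x t ⁻¹' (innerSL ℝ y ⁻¹' {c}))
    ⟨u, (Submodule.mem_orthogonal _ _).2 hu, Set.mem_iInter.2 h⟩
    ((Fx x).isClosed_orthogonal.inter (isClosed_iInter fun t =>
      (isClosed_singleton.preimage (innerSL ℝ y).continuous).preimage (x t).continuous))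
    ((Fx x)ᗮ.convex.inter (convex_iInter fun t =>
      ((convex_singleton c).linear_preimage (innerSL ℝ y).toLinearMap).linear_preimage
        (x t).toLinearEquiv.toLinearMap))
    fun t z hz => ⟨(Submodule.mem_orthogonal _ _).2 fun f hf => by
        rw [← hf t, (x t).inner_map_map]
        exact (Submodule.mem_orthogonal _ _).1 hz.1 f hf,
      Set.mem_iInter.2 fun s => by
        obtain ⟨r, hr⟩ := hx s t
        have := Set.mem_iInter.1 hz.2 r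
        rwa [hr] at this⟩
  have h0 : z = 0 := inner_self_eq_zero.1 ((Submodule.mem_orthogonal _ _).1 hz.1 z hf)
  have h1 := Set.mem_iInter.1 hz.2 (Classical.arbitrary ι)
  rw [h0] at h1
  simpa using h1.symm

/-- The relations of a Heisenberg group over `O`. -/
structure Heis {O : Type} [CommRing O] (x y z : O → (H ≃ₗᵢ[ℝ] H)) : Prop where
  x_neg : ∀ t, x (-t) = (x t)⁻¹
  y_sub : ∀ s t, y (s - t) = (y t)⁻¹ * y s
  y_neg : ∀ t, y (-t) = (y t)⁻¹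
  z_add : ∀ s t, z (s + t) = z s * z t
  z_neg : ∀ t, z (-t) = (z t)⁻¹
  zx : ∀ s t, z s * x t = x t * z s
  zy : ∀ s t, z s * y t = y t * z s
  rel : ∀ a t, y a * x t = x t * z (a * t) * y a

/-- The angle between the fixed spaces. -/
theorem Heis.angle {O : Type} [CommRing O] {x y z : O → (H ≃ₗᵢ[ℝ] H)} (h : Heis x y z)
    (a : Fin 5 → O) (ha : ∀ i j, i ≠ j → IsUnit (a i - a j)) {u w : H} (hu : u ∈ Fx x)
    (hw : w ∈ Fx y) (ho : ∀ f ∈ Fx x ⊓ Fx y, ⟪u, f⟫_ℝ = 0) :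
    ⟪u, w⟫_ℝ ≤ 9 / 40 * (‖u‖ ^ 2 + ‖w‖ ^ 2) := by
  obtain ⟨P, hP⟩ := exists_prj (isClosed_Fx z)
  have zx : ∀ t, ∀ m ∈ Fx z, x t m ∈ Fx z := fun t m hm s => by
    have := congrArg (fun g : H ≃ₗᵢ[ℝ] H => g m) (h.zx s t)
    simpa [hm s] using this
  have zy : ∀ t, ∀ m ∈ Fx z, y t m ∈ Fx z := fun t m hm s => by
    have := congrArg (fun g : H ≃ₗᵢ[ℝ] H => g m) (h.zy s t)
    simpa [hm s] using this
  have Px : ∀ t v, P (x t v) = x t (P v) := fun t =>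
    hP.comm _ (zx t) fun m hm => h.x_neg t ▸ zx (-t) m hm
  have Py : ∀ t v, P (y t v) = y t (P v) := fun t =>
    hP.comm _ (zy t) fun m hm => h.y_neg t ▸ zy (-t) m hm
  obtain ⟨R, hR⟩ := exists_prj (M := Fx y ⊓ Fx z) ((isClosed_Fx y).inter (isClosed_Fx z))
  have mx : ∀ t, ∀ m ∈ Fx y ⊓ Fx z, x t m ∈ Fx y ⊓ Fx z := fun t m hm =>
    ⟨fun s => by
      have := congrArg (fun g : H ≃ₗᵢ[ℝ] H => g m) (h.rel s t)
      simpa [hm.1 s, hm.2 (s * t)] using this, zx t m hm.2⟩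
  have hRu : R u = 0 := by
    have h1 : R u ∈ Fx x := fun t => by
      rw [← hR.comm _ (mx t) (fun m hm => h.x_neg t ▸ mx (-t) m hm) u, hu t]
    have h2 := ho _ ⟨h1, (hR.mem u).1⟩
    rw [← hR.inner_left u (hR.mem u)] at h2
    exact inner_self_eq_zero.1 h2
  have h0 : ⟪P u, w⟫_ℝ = 0 := by
    have h1 : P w ∈ Fx y ⊓ Fx z := ⟨fun t => by rw [← Py, hw t], hP.mem w⟩
    rw [real_inner_comm, ← hP.inner_left w (hP.mem u), real_inner_comm,
      hP.inner_left u (hP.mem w), ← hR.inner_left u h1, hRu, inner_zero_left]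
  set u1 := u - P u with hu1
  have u1x : ∀ t, x t u1 = u1 := fun t => by rw [hu1, map_sub, ← Px, hu t]
  have horth : ∀ c : O, IsUnit c → ⟪y c u1, u1⟫_ℝ = 0 := fun c hc => by
    refine eq_zero_of_const (x := z) (fun s t => ⟨s + t, h.z_add s t⟩) (u := u1) (y := y c u1)
      (fun f hf => by rw [real_inner_comm]; exact hP.orth u f hf) fun s => ?_
    obtain ⟨d, hd⟩ := hc.exists_right_inv
    have e1 : c * (d * -s) = -s := by rw [← mul_assoc, hd, one_mul]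
    have e2 := congrArg (fun g : H ≃ₗᵢ[ℝ] H => g u1) (h.rel c (d * -s))
    simp only [LinearIsometryEquiv.coe_mul, Function.comp_apply, u1x, e1, h.z_neg] at e2
    conv_rhs => rw [e2, ← u1x (d * -s)]
    rw [(x _).inner_map_map, u1x, ← (z s).inner_map_map ((z s)⁻¹ _)]
    congr 1
    exact ((z s).apply_symm_apply _).symm
  have hsum : ‖∑ i, y (a i) u1‖ ^ 2 = 5 * ‖u1‖ ^ 2 := by
    rw [← real_inner_self_eq_norm_sq, sum_inner]
    have : ∀ i, ⟪y (a i) u1, ∑ j, y (a j) u1⟫_ℝ = ‖u1‖ ^ 2 := fun i => by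
      rw [inner_sum, Finset.sum_eq_single i]
      · rw [(y _).inner_map_map, real_inner_self_eq_norm_sq]
      · intro j _ hji
        rw [← horth _ (ha i j hji.symm), h.y_sub, ← (y (a j)).inner_map_map _ u1]
        congr 1
        exact ((y (a j)).apply_symm_apply _).symm
      · simp
    simp [this]
  have hin : ⟪∑ i, y (a i) u1, w⟫_ℝ = 5 * ⟪u, w⟫_ℝ := by
    rw [sum_inner]
    have : ∀ i, ⟪y (a i) u1, w⟫_ℝ = ⟪u, w⟫_ℝ := fun i => by
      rw [← hw (a i), (y _).inner_map_map, hu1, inner_sub_left, h0, sub_zero, hw (a i)]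
    simp [this]
  have h1 := real_inner_le_norm (∑ i, y (a i) u1) w
  have h2 : ‖u1‖ ^ 2 ≤ ‖u‖ ^ 2 := by
    rw [hu1, hP.norm_sub_sq]
    nlinarith [sq_nonneg ‖P u‖]
  nlinarith [sq_nonneg (2 * ‖∑ i, y (a i) u1‖ - 9 / 2 * ‖w‖), sq_nonneg ‖u‖]

/-- Two subspaces are at a large angle. -/
def Ang (M N : Submodule ℝ H) : Prop := ∀ u ∈ M, ∀ w ∈ N, (∀ f ∈ M ⊓ N, ⟪u, f⟫_ℝ = 0) →
  ⟪u, w⟫_ℝ ≤ 9 / 40 * (‖u‖ ^ 2 + ‖w‖ ^ 2)

theorem Ang.pair {M N : Submodule ℝ H} (h : Ang M N) (hM : IsClosed (M : Set H))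
    (hN : IsClosed (N : Set H)) {P Q : H →L[ℝ] H} (hP : IsPrj M P) (hQ : IsPrj N Q) (v : H) :
    -(6 / 25) * (‖v - P v‖ ^ 2 + ‖v - Q v‖ ^ 2) ≤ ⟪v - P v, v - Q v⟫_ℝ := by
  obtain ⟨R, hR⟩ := exists_prj (M := M ⊓ N) (hM.inter hN)
  set v' := v - R v with hv'
  have e1 : v - P v = v' - P v' := by
    rw [hv', map_sub, hP.self (hR.mem v).1]; abel
  have e2 : v - Q v = v' - Q v' := by
    rw [hv', map_sub, hQ.self (hR.mem v).2]; abel
  have hg := h _ (hP.mem v') _ (hQ.mem v') fun f hf => by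
    rw [hP.inner_left v' hf.1]
    exact hR.orth v f hf
  have i1 : ⟪v', P v'⟫_ℝ = ‖P v'‖ ^ 2 := by
    rw [← hP.inner_left v' (hP.mem v'), real_inner_self_eq_norm_sq]
  have i2 : ⟪v', Q v'⟫_ℝ = ‖Q v'‖ ^ 2 := by
    rw [← hQ.inner_left v' (hQ.mem v'), real_inner_self_eq_norm_sq]
  have i3 : 0 ≤ ‖v' - (7 / 10 : ℝ) • (P v' + Q v')‖ ^ 2 := sq_nonneg _
  rw [norm_sub_sq_real, inner_smul_right, inner_add_right, i1, i2, norm_smul, mul_pow,
    norm_add_sq_real, Real.norm_eq_abs, sq_abs] at i3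
  rw [e1, e2]
  clear_value v'
  rw [hP.norm_sub_sq, hQ.norm_sub_sq, inner_sub_left, inner_sub_right, inner_sub_right,
    i2, real_inner_comm v' (P v'), i1, real_inner_self_eq_norm_sq]
  nlinarith [sq_nonneg ‖P v'‖, sq_nonneg ‖Q v'‖]

/-- Three subspaces which are pairwise at a large angle. -/
theorem triple {M1 M2 M3 : Submodule ℝ H} (c1 : IsClosed (M1 : Set H))
    (c2 : IsClosed (M2 : Set H)) (c3 : IsClosed (M3 : Set H)) (h12 : Ang M1 M2) (h32 : Ang M3 M2)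
    (h31 : Ang M3 M1) {v : H} {δ : ℝ} (h1 : ∃ y ∈ M1, ‖v - y‖ ≤ δ) (h2 : ∃ y ∈ M2, ‖v - y‖ ≤ δ)
    (h3 : ∃ y ∈ M3, ‖v - y‖ ≤ δ) : ∃ y, y ∈ M1 ∧ y ∈ M2 ∧ y ∈ M3 ∧ ‖v - y‖ ≤ 9 * δ := by
  obtain ⟨P1, p1⟩ := exists_prj c1
  obtain ⟨P2, p2⟩ := exists_prj c2
  obtain ⟨P3, p3⟩ := exists_prj c3
  set E : H → ℝ := fun y => ‖y - P1 y‖ ^ 2 + ‖y - P2 y‖ ^ 2 + ‖y - P3 y‖ ^ 2 with hE
  set D : H →L[ℝ] H := (ContinuousLinearMap.id ℝ H - P1) + (ContinuousLinearMap.id ℝ H - P2) +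
    (ContinuousLinearMap.id ℝ H - P3) with hD
  have Dap : ∀ y, D y = (y - P1 y) + (y - P2 y) + (y - P3 y) := fun y => rfl
  have form : ∀ {M : Submodule ℝ H} {P : H →L[ℝ] H}, IsPrj M P → ∀ a b : H,
      ⟪a - P a, b⟫_ℝ = ⟪a - P a, b - P b⟫_ℝ := fun hP a b => by
    rw [inner_sub_right, hP.orth a _ (hP.mem b), sub_zero]
  have Dform : ∀ a b, ⟪D a, b⟫_ℝ = ⟪a - P1 a, b - P1 b⟫_ℝ + ⟪a - P2 a, b - P2 b⟫_ℝ +
      ⟪a - P3 a, b - P3 b⟫_ℝ := fun a b => by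
    rw [Dap, inner_add_left, inner_add_left, form p1, form p2, form p3]
  have gap : ∀ y, E y ≤ 25 * ‖D y‖ ^ 2 := fun y => by
    have a1 := h12.pair c1 c2 p1 p2 y
    have a2 := h32.pair c3 c2 p3 p2 y
    have a3 := h31.pair c3 c1 p3 p1 y
    rw [real_inner_comm] at a2 a3
    rw [Dap, norm_add_sq_real, norm_add_sq_real, inner_add_left]
    simp only [hE]
    linarith
  have cs : ∀ a b : H, ⟪a, b⟫_ℝ ≤ 1 / 50 * ‖a‖ ^ 2 + 25 / 2 * ‖b‖ ^ 2 := fun a b => by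
    nlinarith [real_inner_le_norm a b, sq_nonneg (‖a‖ - 25 * ‖b‖)]
  have low : ∀ y ∈ (LinearMap.range (D : H →ₗ[ℝ] H)).topologicalClosure, ‖y‖ ^ 2 ≤ 25 * E y := by
    intro y hy
    refine closure_minimal (t := {y | ‖y‖ ^ 2 ≤ 25 * E y}) ?_
      (isClosed_le (by fun_prop) (by simp only [hE]; fun_prop)) hy
    rintro _ ⟨b, rfl⟩
    have b1 := Dform b (D b)
    rw [real_inner_self_eq_norm_sq] at b1
    have b2 := gap b
    have b3 := cs (b - P1 b) (D b - P1 (D b))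
    have b4 := cs (b - P2 b) (D b - P2 (D b))
    have b5 := cs (b - P3 b) (D b - P3 (D b))
    change ‖D b‖ ^ 2 ≤ 25 * E (D b)
    simp only [hE] at b2 ⊢
    linarith
  obtain ⟨R, hR⟩ := exists_prj (LinearMap.range (D : H →ₗ[ℝ] H)).isClosed_topologicalClosure
  set y := v - R v with hy
  have y0 := hR.orth v (D y) (Submodule.le_topologicalClosure _ ⟨y, rfl⟩)
  rw [← hy, real_inner_comm, Dform, real_inner_self_eq_norm_sq, real_inner_self_eq_norm_sq,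
    real_inner_self_eq_norm_sq] at y0
  have fin : ∀ {M : Submodule ℝ H} {P : H →L[ℝ] H}, IsPrj M P → ‖y - P y‖ ^ 2 ≤ 0 →
      (∃ m ∈ M, ‖v - m‖ ≤ δ) → y ∈ M ∧ ‖R v - P (R v)‖ ^ 2 ≤ δ ^ 2 := by
    rintro M P hP h0 ⟨m, hm, hδ⟩
    have e1 : y = P y := sub_eq_zero.1 (norm_eq_zero.1 (pow_eq_zero_iff two_ne_zero |>.1
      (le_antisymm h0 (sq_nonneg _))))
    have e2 : y ∈ M := e1 ▸ hP.mem y
    refine ⟨e2, pow_le_pow_left₀ (norm_nonneg _) ((hP.dist_le _ (M.sub_mem hm e2)).trans ?_) 2⟩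
    rwa [show R v - (m - y) = v - m by rw [hy]; abel]
  have n1 := sq_nonneg ‖y - P1 y‖
  have n2 := sq_nonneg ‖y - P2 y‖
  have n3 := sq_nonneg ‖y - P3 y‖
  obtain ⟨m1, k1⟩ := fin p1 (by linarith) h1
  obtain ⟨m2, k2⟩ := fin p2 (by linarith) h2
  obtain ⟨m3, k3⟩ := fin p3 (by linarith) h3
  refine ⟨y, m1, m2, m3, ?_⟩
  have hδ : 0 ≤ δ := by
    obtain ⟨m, -, hm⟩ := h1
    exact (norm_nonneg _).trans hm
  have l1 := low _ (hR.mem v)
  simp only [hE] at l1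
  rw [hy, sub_sub_cancel]
  refine (pow_le_pow_iff_left₀ (norm_nonneg _) (by positivity) two_ne_zero).1 ?_
  nlinarith [sq_nonneg δ]

end Vale.Agent.P011Z.TL
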